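import Vale.Agent.P181.MD.H873.Third
import Vale.Agent.P181.MD.H514.LBD
import Vale.Agent.P181.MD.H752.NumD
import Vale.Agent.P181.MD.H809.All
import Vale.Agent.P181.HO.H207.All
import Vale.Agent.P181.FD.H422.All

set_option autoImplicit false

/-!
# P181, MD+: a long third row, `b ≥ (1 + δ) a`, no hypothesis left
-/

namespace Vale.Agent.P181.MD.H873

/-- the comparison with two peeled rows -/
theorem lbd : H514.LBD := H514.lbd H752.numD H187.rem H809.matM H809.desM

/-- **The theorem of the line MD+**: for every `δ > 0`, `a` large, `b ≥ (1 + δ) a`, every shape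
whose third row is at least `a ^ (5 / 3)`. -/
theorem third : H514.ThirdLongD := thirdLongD lbd HO.uniYc FD.fatLog PLX.polyS

end Vale.Agent.P181.MD.H873
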