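import Vale.Agent.P181.DX.H556.Sec
import Vale.Agent.P181.T7.Cells
import Vale.Agent.P181.H530.Pad
import Vale.Agent.P181.MD.H514.DefsD

set_option autoImplicit false

/-!
# P181, MD+, [P3]: a long third row, `b ≥ (1 + δ) a`

From `LBD` (the comparison with two peeled rows), `UniY`, `FatLog` and `PolyS`.
-/

namespace Vale.Agent.P181.MD.H873

open Vale.Agent.P181
open Vale.Agent.P181.H280 (plethMult)
open Vale.Agent.P181.T4 (ex)
open Vale.Agent.P181.PL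
open Vale.Agent.P181.DX.H556 (UniY FatLog sum_min)
open Vale.Agent.P181.MD.H514 (LBD ThirdLongD)
open Filter

/-- polylogarithms are small powers -/
lemma plog (C : ℝ) (c : ℕ) {ε : ℝ} (hε : 0 < ε) :
    ∀ᶠ a : ℕ in atTop, C * (1 + Real.log a) ^ c ≤ (a : ℝ) ^ ε := by
  have hM : (0 : ℝ) < (|C| + 1) * 2 ^ c := by positivity
  have h1 := (isLittleO_log_rpow_rpow_atTop (c : ℝ) hε).bound (c := 1 / ((|C| + 1) * 2 ^ c))
    (by positivity)
  have h2 := tendsto_natCast_atTop_atTop (R := ℝ) |>.eventually h1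
  filter_upwards [h2, eventually_ge_atTop 3] with a ha h3
  have h3R : (3 : ℝ) ≤ a := by exact_mod_cast h3
  have ha0 : (0 : ℝ) < a := by linarith
  have hlog : 1 ≤ Real.log a := by
    rw [Real.le_log_iff_exp_le ha0]
    have := Real.exp_one_lt_d9
    linarith
  have e1 : ‖Real.log (a : ℝ) ^ (c : ℝ)‖ = Real.log a ^ c := by
    rw [Real.rpow_natCast, Real.norm_of_nonneg (by positivity)]
  have e2 : ‖(a : ℝ) ^ ε‖ = (a : ℝ) ^ ε := Real.norm_of_nonneg (by positivity)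
  rw [e1, e2, one_div, inv_mul_eq_div, le_div_iff₀ hM] at ha
  calc C * (1 + Real.log a) ^ c ≤ |C| * (1 + Real.log a) ^ c :=
        mul_le_mul_of_nonneg_right (le_abs_self C) (by positivity)
    _ ≤ (|C| + 1) * (2 * Real.log a) ^ c := by
        apply mul_le_mul (by linarith) _ (by positivity) (by positivity)
        exact pow_le_pow_left₀ (by positivity) (by linarith) c
    _ = Real.log a ^ c * ((|C| + 1) * 2 ^ c) := by
        rw [mul_pow]
        ring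
    _ ≤ _ := ha

/-- rows behind row `T` are shorter than `b` -/
lemma row_lt {b n : ℕ} {lam : Fin n → ℕ} (hanti : Antitone lam) {T : ℝ} (hb : 0 < b)
    (h : ∑ i, ((min b (lam i) : ℕ) : ℝ) ≤ T * b) {i : ℕ} (hi : T ≤ i) : ex lam i < b := by
  by_contra hcon
  rw [not_lt] at hcon
  have hin : i < n := by
    by_contra hc
    rw [exge lam (by omega)] at hcon
    omega
  have hbR : (0 : ℝ) < b := by exact_mod_cast hb
  have h1 : ((i : ℝ) + 1) * b ≤ ∑ j, ((min b (lam j) : ℕ) : ℝ) := by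
    have h2 : ∑ j : Fin n, (if (j : ℕ) ≤ i then (b : ℝ) else 0) = ((i : ℝ) + 1) * b := by
      have h3 : (Finset.univ.filter fun j : Fin n => (j : ℕ) ≤ i) = Finset.Iic ⟨i, hin⟩ := by
        ext j
        simp [Fin.le_def]
      rw [← Finset.sum_filter, Finset.sum_const, nsmul_eq_mul, h3, Fin.card_Iic]
      push_cast
      ring
    rw [← h2]
    apply Finset.sum_le_sum
    intro j _
    split_ifs with hj
    · have h3 : b ≤ lam j := by
        rw [← exfin lam j]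
        exact hcon.trans (exanti hanti hj)
      rw [min_eq_left h3]
    · exact Nat.cast_nonneg _
  have h2 : ((i : ℝ) + 1) * b ≤ T * b := h1.trans h
  have h3 : (i : ℝ) + 1 ≤ T := le_of_mul_le_mul_right h2 hbR
  linarith

/-- a large gap -/
lemma gap {f : ℕ → ℕ} {R M : ℕ} (hR : 2 ≤ R) (hM : 0 < M) (h : f R + R * M ≤ f 2) :
    ∃ i, 2 ≤ i ∧ i < R ∧ f (i + 1) + M ≤ f i := by
  by_contra hcon
  push Not at hcon
  have key : ∀ k, 2 + k ≤ R → f 2 ≤ f (2 + k) + k * M := by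
    intro k
    induction k with
    | zero => intro _; simp
    | succ k ih =>
      intro hk
      have h1 := ih (by omega)
      have h2 := hcon (2 + k) (by omega) (by omega)
      have e1 : 2 + (k + 1) = 2 + k + 1 := by omega
      rw [e1, Nat.succ_mul]
      omega
  have h1 := key (R - 2) (by omega)
  have e1 : 2 + (R - 2) = R := by omega
  rw [e1] at h1
  have h2 : (R - 2) * M + 2 * M = R * M := by
    rw [← Nat.add_mul]
    congr 1
    omega
  omega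

/-- the number of columns -/
lemma exN {b : ℕ} (hb : 0 < b) : ∃ N : ℕ, 0 < N ∧ b ^ 8 ≤ N ^ 5 ∧ N ^ 5 ≤ 32 * b ^ 8 := by
  have hex : ∃ N : ℕ, b ^ 8 ≤ N ^ 5 := by
    refine ⟨b ^ 2, ?_⟩
    rw [← pow_mul]
    exact Nat.pow_le_pow_right hb (by norm_num)
  classical
  have h1 := Nat.find_spec hex
  have h2 : ∀ k, k < Nat.find hex → ¬ b ^ 8 ≤ k ^ 5 := fun k hk => Nat.find_min hex hk
  obtain ⟨N, hN⟩ : ∃ N, N = Nat.find hex := ⟨_, rfl⟩
  rw [← hN] at h1 h2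
  have hb8 : 0 < b ^ 8 := by positivity
  have hN0 : 0 < N := by
    rcases Nat.eq_zero_or_pos N with h | h
    · rw [h] at h1
      simp at h1
      omega
    · exact h
  refine ⟨N, hN0, h1, ?_⟩
  rcases Nat.lt_or_ge N 2 with h | h
  · have e : N = 1 := by omega
    rw [e]
    omega
  · have h3 := h2 (N - 1) (by omega)
    have h4 : N ^ 5 ≤ (2 * (N - 1)) ^ 5 := Nat.pow_le_pow_left (by omega) 5
    rw [mul_pow] at h4
    norm_num at h4
    omega

/-- **the numbers** -/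
theorem find {κ T : ℝ} {a b n : ℕ} {lam : Fin n → ℕ} (hanti : Antitone lam) (hT : 16 ≤ T)
    (hTa : T ^ 100 ≤ (a : ℝ)) (hTk : T ^ 2 ≤ (a : ℝ) ^ κ) (hab : a ≤ b) (hba : (b : ℝ) ≤ T * a)
    (hmin : ∑ i, ((min b (lam i) : ℕ) : ℝ) ≤ T * b) (hw : (b : ℝ) ^ 2 ≤ T * dn lam 1)
    (h2 : (a : ℝ) ^ (5 / 3 : ℝ) ≤ ex lam 2) :
    ∃ m N R : ℕ, b ^ 50 ≤ a ^ 51 ∧ 3 ≤ m ∧ m ≤ n ∧ m ^ 20 ≤ b ∧ b ^ 8 ≤ N ^ 5 ∧
      N ^ 5 ≤ 32 * b ^ 8 ∧ (∀ i : Fin n, (i : ℕ) < m → ex lam m + 2 * N ≤ lam i) ∧ R ^ 2 ≤ a ∧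
      (∀ i : Fin n, R ≤ (i : ℕ) → 4 * lam i ≤ ex lam 1) ∧ (a : ℝ) ^ (2 - κ) ≤ ex lam 1 := by
  have hT0 : (0 : ℝ) < T := by linarith
  have hT1 : (1 : ℝ) ≤ T := by linarith
  have hTp : ∀ i j : ℕ, i ≤ j → T ^ i ≤ T ^ j := fun i j h => pow_le_pow_right₀ hT1 h
  have hT5 : (2 : ℝ) ^ 20 ≤ T ^ 5 := by
    calc (2 : ℝ) ^ 20 = 16 ^ 5 := by norm_num
      _ ≤ T ^ 5 := pow_le_pow_left₀ (by norm_num) hT 5
  have hTA : T ≤ (a : ℝ) := by
    calc T = T ^ 1 := (pow_one T).symm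
      _ ≤ T ^ 100 := hTp 1 100 (by norm_num)
      _ ≤ a := hTa
  have ha0 : (0 : ℝ) < a := by linarith
  have ha1 : (1 : ℝ) ≤ a := by linarith
  have habR : (a : ℝ) ≤ b := by exact_mod_cast hab
  have hb0 : (0 : ℝ) < b := by linarith
  have hbN : 0 < b := by exact_mod_cast hb0
  -- the number of long rows
  obtain ⟨R, hR⟩ : ∃ R : ℕ, R = ⌈T⌉₊ := ⟨_, rfl⟩
  have hR1 : T ≤ R := by rw [hR]; exact Nat.le_ceil T
  have hR2 : (R : ℝ) ≤ 2 * T := by
    have h3 : (R : ℝ) < T + 1 := by rw [hR]; exact Nat.ceil_lt_add_one hT0.le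
    linarith
  have hR16 : 16 ≤ R := by
    have h3 : (16 : ℝ) ≤ R := hT.trans hR1
    exact_mod_cast h3
  have hRrow : ∀ i, R ≤ i → ex lam i < b := fun i hi =>
    row_lt hanti hbN hmin (hR1.trans (by exact_mod_cast hi))
  -- the number of columns
  obtain ⟨N, hN0, hN1, hN2⟩ := exN hbN
  obtain ⟨Z, hZ⟩ : ∃ Z : ℝ, Z = (a : ℝ) ^ (5 / 3 : ℝ) := ⟨_, rfl⟩
  have hZ0 : 0 < Z := by rw [hZ]; positivity
  have hZ3 : Z ^ 3 = (a : ℝ) ^ 5 := by
    rw [hZ, ← Real.rpow_natCast, ← Real.rpow_mul ha0.le]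
    norm_num
  rw [← hZ] at h2
  have hbZ : 2 * (b : ℝ) ≤ Z := by
    have h3 : (2 * (b : ℝ)) ^ 3 ≤ Z ^ 3 := by
      rw [hZ3]
      calc (2 * (b : ℝ)) ^ 3 ≤ (2 * (T * a)) ^ 3 :=
            pow_le_pow_left₀ (by positivity) (by linarith) 3
        _ = 8 * T ^ 3 * (a : ℝ) ^ 3 := by ring
        _ ≤ a * (a : ℝ) ^ 3 := by
            apply mul_le_mul_of_nonneg_right _ (by positivity)
            calc 8 * T ^ 3 ≤ T * T ^ 3 :=
                  mul_le_mul_of_nonneg_right (by linarith) (by positivity)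
              _ = T ^ 4 := by ring
              _ ≤ T ^ 100 := hTp 4 100 (by norm_num)
              _ ≤ a := hTa
        _ = 1 * (a : ℝ) ^ 4 := by ring
        _ ≤ a * (a : ℝ) ^ 4 := mul_le_mul_of_nonneg_right ha1 (by positivity)
        _ = (a : ℝ) ^ 5 := by ring
    exact (pow_le_pow_iff_left₀ (by positivity) hZ0.le (by norm_num)).1 h3
  have hNR : (N : ℝ) ^ 5 ≤ 32 * (b : ℝ) ^ 8 := by exact_mod_cast hN2
  have hNZ : 4 * (R : ℝ) * N ≤ Z := by
    have h3 : ((4 * (R : ℝ) * N) ^ 5) ^ 3 ≤ (Z ^ 3) ^ 5 := by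
      rw [hZ3]
      have h4 : (4 * (R : ℝ) * N) ^ 5 ≤ T ^ 18 * (a : ℝ) ^ 8 := by
        calc (4 * (R : ℝ) * N) ^ 5 = 4 ^ 5 * (R : ℝ) ^ 5 * (N : ℝ) ^ 5 := by ring
          _ ≤ 4 ^ 5 * (2 * T) ^ 5 * (32 * (b : ℝ) ^ 8) := by
              apply mul_le_mul _ hNR (by positivity) (by positivity)
              apply mul_le_mul_of_nonneg_left _ (by positivity)
              exact pow_le_pow_left₀ (by positivity) hR2 5
          _ ≤ 4 ^ 5 * (2 * T) ^ 5 * (32 * (T * a) ^ 8) := by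
              apply mul_le_mul_of_nonneg_left _ (by positivity)
              apply mul_le_mul_of_nonneg_left _ (by positivity)
              exact pow_le_pow_left₀ hb0.le hba 8
          _ = 2 ^ 20 * (T ^ 13 * (a : ℝ) ^ 8) := by ring
          _ ≤ T ^ 5 * (T ^ 13 * (a : ℝ) ^ 8) := mul_le_mul_of_nonneg_right hT5 (by positivity)
          _ = T ^ 18 * (a : ℝ) ^ 8 := by ring
      calc ((4 * (R : ℝ) * N) ^ 5) ^ 3 ≤ (T ^ 18 * (a : ℝ) ^ 8) ^ 3 :=
            pow_le_pow_left₀ (by positivity) h4 3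
        _ = T ^ 54 * (a : ℝ) ^ 24 := by ring
        _ ≤ a * (a : ℝ) ^ 24 :=
            mul_le_mul_of_nonneg_right ((hTp 54 100 (by norm_num)).trans hTa) (by positivity)
        _ = ((a : ℝ) ^ 5) ^ 5 := by ring
    have h4 : (4 * (R : ℝ) * N) ^ 15 ≤ Z ^ 15 := by
      calc (4 * (R : ℝ) * N) ^ 15 = ((4 * (R : ℝ) * N) ^ 5) ^ 3 := by ring
        _ ≤ (Z ^ 3) ^ 5 := h3
        _ = Z ^ 15 := by ring
    exact (pow_le_pow_iff_left₀ (by positivity) hZ0.le (by norm_num)).1 h4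
  -- the gap
  have hgap : ex lam R + R * (2 * N) ≤ ex lam 2 := by
    have h3 : (ex lam R : ℝ) ≤ b := by exact_mod_cast (hRrow R le_rfl).le
    have h4 : (ex lam R : ℝ) + R * (2 * N) ≤ ex lam 2 := by
      have h5 : (R : ℝ) * (2 * N) = (4 * (R : ℝ) * N) / 2 := by ring
      rw [h5]
      linarith
    exact_mod_cast h4
  obtain ⟨i, hi1, hi2, hi3⟩ := gap (f := ex lam) (by omega) (by omega : 0 < 2 * N) hgap
  -- the second row
  have h12 : ex lam 2 ≤ ex lam 1 := exanti hanti (by norm_num)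
  have h12R : (ex lam 2 : ℝ) ≤ ex lam 1 := by exact_mod_cast h12
  have hM : (ex lam 1 : ℝ) = max (b : ℝ) (ex lam 1) := (max_eq_right (by linarith)).symm
  have hl0 : (0 : ℝ) < ex lam 1 := by linarith
  have h3 := (sum_min hanti hl0 hM).trans hmin
  rw [div_le_iff₀ hl0] at h3
  have h4 : (dn lam 1 : ℝ) ≤ T * ex lam 1 := by
    have h5 : (dn lam 1 : ℝ) * b ≤ (T * ex lam 1) * b := by
      calc (dn lam 1 : ℝ) * b ≤ T * b * ex lam 1 := h3
        _ = (T * ex lam 1) * b := by ring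
    exact le_of_mul_le_mul_right h5 hb0
  have h5 : (b : ℝ) ^ 2 ≤ T ^ 2 * ex lam 1 := by
    calc (b : ℝ) ^ 2 ≤ T * dn lam 1 := hw
      _ ≤ T * (T * ex lam 1) := mul_le_mul_of_nonneg_left h4 hT0.le
      _ = _ := by ring
  refine ⟨i + 1, N, R, ?_, by omega, ?_, ?_, hN1, hN2, ?_, ?_, ?_, ?_⟩
  · have h6 : (b : ℝ) ^ 50 ≤ (a : ℝ) ^ 51 := by
      calc (b : ℝ) ^ 50 ≤ (T * a) ^ 50 := pow_le_pow_left₀ hb0.le hba 50
        _ = T ^ 50 * (a : ℝ) ^ 50 := by ring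
        _ ≤ a * (a : ℝ) ^ 50 :=
            mul_le_mul_of_nonneg_right ((hTp 50 100 (by norm_num)).trans hTa) (by positivity)
        _ = (a : ℝ) ^ 51 := by ring
    exact_mod_cast h6
  · by_contra hcon
    rw [exge lam (by omega : n ≤ i)] at hi3
    omega
  · have h6 : ((i + 1 : ℕ) : ℝ) ≤ 2 * T := by
      have h7 : ((i + 1 : ℕ) : ℝ) ≤ R := by exact_mod_cast (by omega : i + 1 ≤ R)
      linarith
    have h7 : ((i + 1 : ℕ) : ℝ) ^ 20 ≤ (b : ℝ) := by
      calc ((i + 1 : ℕ) : ℝ) ^ 20 ≤ (2 * T) ^ 20 := pow_le_pow_left₀ (Nat.cast_nonneg _) h6 20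
        _ = 2 ^ 20 * T ^ 20 := by ring
        _ ≤ T ^ 5 * T ^ 20 := mul_le_mul_of_nonneg_right hT5 (by positivity)
        _ = T ^ 25 := by ring
        _ ≤ T ^ 100 := hTp 25 100 (by norm_num)
        _ ≤ a := hTa
        _ ≤ b := habR
    exact_mod_cast h7
  · intro j hj
    have h6 := exanti hanti (show (j : ℕ) ≤ i by omega)
    rw [exfin lam j] at h6
    omega
  · have h6 : (R : ℝ) ^ 2 ≤ a := by
      calc (R : ℝ) ^ 2 ≤ (2 * T) ^ 2 := pow_le_pow_left₀ (Nat.cast_nonneg _) hR2 2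
        _ = 4 * T ^ 2 := by ring
        _ ≤ T * T ^ 2 := mul_le_mul_of_nonneg_right (by linarith) (by positivity)
        _ = T ^ 3 := by ring
        _ ≤ T ^ 100 := hTp 3 100 (by norm_num)
        _ ≤ a := hTa
    exact_mod_cast h6
  · intro j hj
    have h6 := (hRrow j hj).le
    rw [exfin lam j] at h6
    have h7 : (lam j : ℝ) ≤ b := by exact_mod_cast h6
    have h8 : 4 * (b : ℝ) ≤ ex lam 1 := by
      have h9 : T ^ 2 * (4 * (b : ℝ)) ≤ T ^ 2 * ex lam 1 := by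
        calc T ^ 2 * (4 * (b : ℝ)) = (4 * T ^ 2) * b := by ring
          _ ≤ (b : ℝ) * b := by
              apply mul_le_mul_of_nonneg_right _ hb0.le
              calc 4 * T ^ 2 ≤ T * T ^ 2 :=
                    mul_le_mul_of_nonneg_right (by linarith) (by positivity)
                _ = T ^ 3 := by ring
                _ ≤ T ^ 100 := hTp 3 100 (by norm_num)
                _ ≤ a := hTa
                _ ≤ b := habR
          _ = (b : ℝ) ^ 2 := by ring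
          _ ≤ _ := h5
      exact le_of_mul_le_mul_left h9 (by positivity)
    have h9 : 4 * (lam j : ℝ) ≤ ex lam 1 := by linarith
    exact_mod_cast h9
  · have h6 : T ^ 2 * (a : ℝ) ^ (2 - κ) ≤ T ^ 2 * ex lam 1 := by
      calc T ^ 2 * (a : ℝ) ^ (2 - κ) ≤ (a : ℝ) ^ κ * (a : ℝ) ^ (2 - κ) :=
            mul_le_mul_of_nonneg_right hTk (by positivity)
        _ = (a : ℝ) ^ (κ + (2 - κ)) := (Real.rpow_add ha0 _ _).symm
        _ = (a : ℝ) ^ 2 := by
            rw [add_sub_cancel, ← Real.rpow_natCast]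
            norm_num
        _ ≤ (b : ℝ) ^ 2 := pow_le_pow_left₀ ha0.le habR 2
        _ ≤ _ := h5
    exact le_of_mul_le_mul_left h6 (by positivity)

/-- **[P3]** -/
theorem thirdLongD (hL : LBD) (hY : UniY) (hF : FatLog) (hP : PolyS) : ThirdLongD := by
  intro δ hδ
  obtain ⟨κ, a1, hκ, hL⟩ := hL δ hδ
  obtain ⟨C1, c1, hC1, hP⟩ := hP
  obtain ⟨C2, c2, hC2, hY⟩ := hY
  obtain ⟨C3, c3, hC3, hF⟩ := hF
  obtain ⟨ε, hε⟩ : ∃ ε : ℝ, ε = min (1 / 100) (κ / 2) := ⟨_, rfl⟩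
  have e0 : 0 < ε := by rw [hε]; exact lt_min (by norm_num) (by linarith)
  have e1 : ε ≤ 1 / 100 := by rw [hε]; exact min_le_left _ _
  have e2 : ε ≤ κ / 2 := by rw [hε]; exact min_le_right _ _
  obtain ⟨a0, ha0⟩ := eventually_atTop.1 ((plog 16 0 e0).and ((plog C1 c1 e0).and
    ((plog C2 c2 e0).and ((plog (C3 * ((1 + δ) / δ)) c3 e0).and (eventually_ge_atTop (a1 + 2))))))
  refine ⟨a0, fun a b n lam ha hab h2 => ?_⟩
  obtain ⟨g0, g1, g2, g3, g4⟩ := ha0 a ha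
  have haN : 2 ≤ a := by omega
  have haR : (2 : ℝ) ≤ a := by exact_mod_cast haN
  have ha1 : (1 : ℝ) ≤ a := by linarith
  have hap : (0 : ℝ) < a := by linarith
  obtain ⟨L, hLd⟩ : ∃ L : ℝ, L = 1 + Real.log a := ⟨_, rfl⟩
  have hL1 : 1 ≤ L := by rw [hLd]; linarith [Real.log_natCast_nonneg a]
  rw [← hLd] at g1 g2 g3
  obtain ⟨T, hT⟩ : ∃ T : ℝ, T = (a : ℝ) ^ ε := ⟨_, rfl⟩
  rw [← hT] at g0 g1 g2 g3
  rw [pow_zero, mul_one] at g0
  have hT0 : 0 < T := by linarith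
  have hTa : T ^ 100 ≤ (a : ℝ) := by
    rw [hT, ← Real.rpow_natCast, ← Real.rpow_mul hap.le]
    calc (a : ℝ) ^ (ε * ((100 : ℕ) : ℝ)) ≤ (a : ℝ) ^ (1 : ℝ) := by
          apply Real.rpow_le_rpow_of_exponent_le ha1
          push_cast
          linarith
      _ = a := Real.rpow_one _
  have hTk : T ^ 2 ≤ (a : ℝ) ^ κ := by
    rw [hT, ← Real.rpow_natCast, ← Real.rpow_mul hap.le]
    apply Real.rpow_le_rpow_of_exponent_le ha1
    push_cast
    linarith
  have habR : (a : ℝ) ≤ b := by nlinarith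
  have habN : a ≤ b := by exact_mod_cast habR
  have hbp : (0 : ℝ) < b := by linarith
  have key : ∀ (k : ℕ) (mu : Fin k → ℕ), k ≤ a → 2 ≤ k → Antitone mu → ∑ i, mu i = a * b →
      (a : ℝ) ^ (5 / 3 : ℝ) ≤ ex mu 2 → plethMult a b k mu ≤ plethMult b a k mu := by
    intro k mu hk hk2 hanti hsum hmu
    by_cases q1 : C1 * a * (1 + Real.log a) ^ c1 ≤ b
    · exact hP a b q1 k mu
    rw [not_le, ← hLd] at q1
    have hba : (b : ℝ) ≤ T * a := by
      calc (b : ℝ) ≤ C1 * a * L ^ c1 := q1.le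
        _ = (C1 * L ^ c1) * a := by ring
        _ ≤ T * a := mul_le_mul_of_nonneg_right g1 hap.le
    have hd0 : (0 : ℝ) ≤ dn mu 1 := Nat.cast_nonneg _
    by_cases q2 : T * (dn mu 1 : ℝ) ≤ (b : ℝ) ^ 2
    · -- `UniY`
      have h3 : (b : ℝ) ≤ (dn mu 2 : ℝ) := by
        have h4 : (ex mu 2 : ℝ) ≤ dn mu 2 := by
          have h5 := dn_succ mu 2
          exact_mod_cast (by omega : ex mu 2 ≤ dn mu 2)
        have h5 : T * a ≤ (a : ℝ) ^ (5 / 3 : ℝ) := by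
          have h6 : T ≤ (a : ℝ) ^ (2 / 3 : ℝ) := by
            rw [hT]
            exact Real.rpow_le_rpow_of_exponent_le ha1 (by linarith)
          calc T * a ≤ (a : ℝ) ^ (2 / 3 : ℝ) * (a : ℝ) ^ (1 : ℝ) := by
                rw [Real.rpow_one]
                exact mul_le_mul_of_nonneg_right h6 hap.le
            _ = (a : ℝ) ^ (5 / 3 : ℝ) := by
                rw [← Real.rpow_add hap]
                norm_num
        linarith
      have h4 : C2 * (1 + Real.log a) ^ c2 * (dn mu 1 : ℝ) ≤ (b : ℝ) ^ 2 := by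
        rw [← hLd]
        exact (mul_le_mul_of_nonneg_right g2 hd0).trans q2
      refine hY a b habN k mu (Or.inr (Or.inr (Or.inr ⟨h4, h4.trans ?_⟩)))
      exact pow_le_pow_left₀ hbp.le h3 2
    rw [not_le] at q2
    by_cases q3 : ∑ i, ((min b (mu i) : ℕ) : ℝ) ≤ T * b
    · -- `LBD`
      obtain ⟨m, N, R, r1, r2, r3, r4, r5, r6, r7, r8, r9, r10⟩ :=
        find hanti g0 hTa hTk habN hba q3 q2.le hmu
      obtain ⟨j, rfl⟩ : ∃ j, k = j + 2 := ⟨k - 2, by omega⟩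
      exact hL a b j m N R mu (by omega) hab r1 hk hanti hsum r2 r3 r4 r5 r6 r7 r8 r9 r10
    · -- `FatLog`
      rw [not_le] at q3
      apply hF a b k mu habN
      have h3 : C3 * L ^ c3 * (1 + δ) ≤ T * δ := by
        have h4 : C3 * ((1 + δ) / δ) * L ^ c3 = (C3 * L ^ c3 * (1 + δ)) / δ := by
          field_simp
        rw [h4, div_le_iff₀ hδ] at g3
        exact g3
      have h4 : δ * b ≤ (1 + δ) * ((b : ℝ) - a) := by nlinarith
      rw [← hLd]
      have h5 : (C3 * L ^ c3 * (b : ℝ) ^ 2) * (1 + δ) ≤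
          (((b : ℝ) - a) * ∑ i, ((min b (mu i) : ℕ) : ℝ)) * (1 + δ) := by
        calc (C3 * L ^ c3 * (b : ℝ) ^ 2) * (1 + δ) = (C3 * L ^ c3 * (1 + δ)) * (b : ℝ) ^ 2 := by
              ring
          _ ≤ (T * δ) * (b : ℝ) ^ 2 := mul_le_mul_of_nonneg_right h3 (by positivity)
          _ = (δ * b) * (T * b) := by ring
          _ ≤ ((1 + δ) * ((b : ℝ) - a)) * ∑ i, ((min b (mu i) : ℕ) : ℝ) :=
              mul_le_mul h4 q3.le (by positivity) (by nlinarith)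
          _ = _ := by ring
      exact le_of_mul_le_mul_right h5 (by linarith)
  have h3 : ∀ {k : ℕ} (mu : Fin k → ℕ), dn mu 2 - dn mu 3 = ex mu 2 := by
    intro k mu
    have h4 := dn_succ mu 2
    have h5 : dn mu (2 + 1) = dn mu 3 := rfl
    omega
  refine T7.all_n_cells H530.pad_stmt H530.zero_stmt
    (fun f => (a : ℝ) ^ (5 / 3 : ℝ) ≤ ((f 2 - f 3 : ℕ) : ℝ)) ?_ n lam ?_
  · intro mu hanti hsum hQ
    refine key a mu le_rfl haN hanti hsum ?_
    have hQ' : (a : ℝ) ^ (5 / 3 : ℝ) ≤ ((T7.below 2 mu - T7.below 3 mu : ℕ) : ℝ) := hQ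
    rw [T7.below_cells, T7.below_cells] at hQ'
    rw [← h3 mu]
    exact hQ'
  · show (a : ℝ) ^ (5 / 3 : ℝ) ≤ ((dn lam 2 - dn lam 3 : ℕ) : ℝ)
    rw [h3 lam]
    exact h2

end Vale.Agent.P181.MD.H873
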